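import Crest.Agent.X212.Eqv71.Cyl

/-!
# Row 212 (helper4): nondegeneracy is gauge invariant
-/

set_option autoImplicit false
set_option linter.unusedSectionVars false
noncomputable section
open scoped Manifold ContDiff Topology InnerProductSpace
open Set Function Filter

namespace Crest.Agent.X212.Fx4
open An Wz78 Sob92 Nd18 Cyf70 Eqv71

section gen
variable {E : Type} [NormedAddCommGroup E] [NormedSpace ℝ E] [FiniteDimensional ℝ E]
  [MeasurableSpace E] [BorelSpace E]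
  {HM : Type} [TopologicalSpace HM] {I : ModelWithCorners ℝ E HM}
  {M : Type} [TopologicalSpace M] [ChartedSpace HM M] [IsManifold I ∞ M]
  [MeasurableSpace M] {ι : Type} [Fintype ι] {lam : Type} [Fintype lam] {r : ℕ}
  {B : Base M ι lam} {G : Geo I M ι lam} {m m' : Md M ι lam} {x : M}
  {c c' : Cfg M ι lam r} {ζ : Circle}

theorem p1_iff {α : Fm ι m.A} : m.p1 B x α = α ↔
    (∀ a, α a ∈ m.gS x) ∧ ∀ a, ∑ b, B.P a b x • α b = α a := by
  constructor
  · intro h
    have h1 : ∀ a, α a ∈ m.gS x := fun a => h ▸ p1_mem x α a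
    refine ⟨h1, fun a => ?_⟩
    conv_rhs => rw [← h, Md.p1, Eqv71.idx_apply]
    simp only [fun b => pg_of_mem (h1 b)]
  · rintro ⟨h1, h2⟩
    ext1 a
    simp only [Md.p1, Eqv71.idx_apply, fun b => pg_of_mem (h1 b), h2]

theorem ad0_vr (A : Ad0 c B G) {α : M → Fm ι c.m.A} {φ : M → c.m.V} (sα : Sm I α)
    (h : ∀ x, c.m.p1 B x (α x) = α x) (sφ : Sm I φ) (h' : ∀ x, c.m.pp B x (φ x) = φ x) :
    Ad0 (vr c α φ) B G :=
  ⟨A.ok, Mod61.isConn_addC A.ok A.conn (fun a x => SA.comp (sα x) a)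
    (fun x => (p1_iff.1 (h x)).1) fun x => (p1_iff.1 (h x)).2, A.sm.add sφ, fun x => by
      change c.m.pp B x (c.Φ x + φ x) = c.Φ x + φ x
      rw [map_add, A.pos, h']⟩

/-- conjugation of one-forms -/
def cjf (u : CL m.V m'.V) (α : Fm ι m.A) : Fm ι m'.A := WithLp.toLp 2 fun a => cj u (α a)

theorem opL_cj_u {x' : M} {U v} {u : CL m.V m'.V} (e : ME m x m' x' U v u) (h : m.OK I B) {ξ : m.A}
    (hξ : ξ ∈ m.gS x) : opL (cj u ξ) ∘L u = u ∘L opL ξ := by
  rw [opL_cj, ContinuousLinearMap.comp_assoc, ContinuousLinearMap.comp_assoc, e.uu]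
  exact congrArg _ (g_p' h hξ)

theorem p1_cjf (hB : B.OK I) {u : CL m.V m'.V} (e : ME m x m' x (fun b a => B.P b a x) (B.l x) u)
    (h : m.OK I B) (h' : m'.OK I B) {α : Fm ι m.A} (k : m.p1 B x α = α) :
    m'.p1 B x (cjf u α) = cjf u α :=
  p1_iff.2 ⟨fun a => e.cj_mem (BE.refl hB x) h h' ((p1_iff.1 k).1 a), fun a => by
    simp only [cjf, ← map_smul, ← map_sum, (p1_iff.1 k).2]⟩

theorem ceq_vr (hB : B.OK I) (A : Ad0 c B G) {u : M → CL c.m.V c'.m.V}
    (e : CEq G.F c c' univ id (fun x b a => B.P b a x) B.l u ζ) {α : M → Fm ι c.m.A}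
    {φ : M → c.m.V} (h : ∀ x, c.m.p1 B x (α x) = α x) {α' φ'} (h1 : ∀ x, α' x = cjf (u x) (α x))
    (h2 : ∀ x, φ' x = cs c'.m.J ζ (u x (φ x))) :
    CEq G.F (vr c α φ) (vr c' α' φ') univ id (fun x b a => B.P b a x) B.l u ζ := by
  obtain rfl := funext h1
  obtain rfl := funext h2
  refine ⟨e.m, fun x _ a => ?_, fun x _ => ?_, e.z⟩
  · have k := p1_iff.1 (h x)
    have e1 : ∑ b, B.P b a x • opL (cj (u x) (α x b)) = opL (cj (u x) (α x a)) := by
      simp only [← map_smul, ← map_sum, (hB.pr x).symm _ a, k.2]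
    have e2 := opL_cj_u (me_of_meq e.m (mem_univ x)) A.ok (k.1 a)
    refine Eq.trans ?_ (e.W x trivial a)
    show G.F.D a u x + (∑ b, B.P b a x • (c'.W b x + opL (cj (u x) (α x b)))) ∘L u x -
      u x ∘L (c.W a x + opL (α x a)) = _
    simp only [id, smul_add, Finset.sum_add_distrib, e1, ContinuousLinearMap.add_comp,
      ContinuousLinearMap.comp_add, e2]
    abel
  · show c'.Φ x + csL c'.m.J ζ (u x (φ x)) = csL c'.m.J ζ (u x (c.Φ x + φ x))
    rw [show c'.Φ x = csL c'.m.J ζ (u x (c.Φ x)) from e.Φ x trivial, map_add, map_add]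

end gen

variable {E3 : Type} [NormedAddCommGroup E3] [NormedSpace ℝ E3] [FiniteDimensional ℝ E3]
  [MeasurableSpace E3] [BorelSpace E3]
  {H3 : Type} [TopologicalSpace H3] {I3 : ModelWithCorners ℝ E3 H3} [I3.Boundaryless]
  {Y : Type} [TopologicalSpace Y] [ChartedSpace H3 Y] [IsManifold I3 ∞ Y] [T2Space Y]
  [MeasurableSpace Y] [BorelSpace Y] [SecondCountableTopology Y] [CompactSpace Y]
  {κ : Type} [Fintype κ] {lam : Type} [Fintype lam] {D : YD I3 Y κ lam} {N : ND Y lam}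
  {β β' : YC Y κ lam}

theorem p1_t {x : Y × ℝ} {α} (h : (cy β).m.p1 D.B (x.1, 0) α = α) : (cy β).m.p1 D.B x α = α :=
  (congrArg (idx · _ α) (funext₂ fun a b => by cases a <;> cases b <;> rfl)).trans h

/-- equivalences in temporal gauge do not depend on the time -/
theorem eqv_fst (hD : D.OK) (A : D.Adm β) (A' : D.Adm β') (e : D.Eqv β β') :
    ∃ (g : Y → CL β.m.V β'.m.V) (ζ : Circle), Sm I3 g ∧
      CEq D.Z (cy β) (cy β') univ id (PZ D) D.B.l (fun x => g x.1) ζ := by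
  obtain ⟨u : Y × ℝ → CL β.m.V β'.m.V, ζ, e⟩ := e
  have hu : Sm (IC I3) u := contMDiffOn_univ.1 e.m.su
  have p := (Pj41.par0_iff ((Pj41.IsConn.on A'.adm.conn univ).proj' hD.B)).2 e.W
  have h1 : ∀ y t, deriv (fun s => u (y, s)) t = 0 := fun y t => by
    have h2 : D.Z.D none u (y, t) + β'.W none y ∘L u (y, t) - u (y, t) ∘L β.W none y = 0 :=
      p (y, t) trivial none
    rw [A.tmp, A'.tmp, ContinuousLinearMap.zero_comp, ContinuousLinearMap.comp_zero, add_zero,
      sub_zero] at h2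
    exact (D_none D.F.toPre hu (y, t)).symm.trans h2
  have h3 : u = fun x => u (x.1, 0) := funext fun x =>
    is_const_of_deriv_eq_zero ((sm_slice_snd hu x.1).differentiable (by simp)) (h1 x.1) x.2 0
  exact ⟨fun y => u (y, 0), ζ, sm_slice_fst hu 0, h3 ▸ e⟩

/-- **nondegeneracy is gauge invariant** -/
theorem nondeg_eqv (hD : OKZ D) (hN : N.OK D) (A : D.Adm β) (A' : D.Adm β') (e : D.Eqv β β')
    (h : N.Nondeg D β') : N.Nondeg D β := fun α φ sα sφ pα α0 pφ dD dC => by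
  obtain ⟨g, ζ, sg, e⟩ := eqv_fst hD.toOK A A' e
  have a := ad0 A.adm
  have a' := ad0 A'.adm
  have me := fun x : Y × ℝ => me_of_meq e.m (mem_univ x)
  have be := fun x : Y × ℝ => BE.refl hD.B x
  have sα' : Sm I3 fun y => cjf (g y) (α y) := fun y =>
    SA.toLp fun k => (sa_cj (sg y)).app (SA.comp (sα y) k)
  have sφ' : Sm I3 fun y => cs β'.m.J ζ (g y (φ y)) := fun y =>
    SA.clm (csL β'.m.J ζ) (SA.app (sg y) (sφ y))
  have pα' := fun y => p1_cjf hD.B (me (y, 0)) a.ok a'.ok (pα y)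
  have pφ' : ∀ y, (cy β').m.pp D.B (y, 0) (cs β'.m.J ζ (g y (φ y))) = cs β'.m.J ζ (g y (φ y)) :=
    fun y => (((me (y, 0)).phase a'.ok ζ).pp ((be _).phase hD.B (ζ * ζ)) hD.B hD.B a.ok _).trans
      (congrArg _ (pφ y))
  have av : ∀ {β : YC Y κ lam} {α φ}, Ad0 (cy β) D.B D.G → Sm I3 α → Sm I3 φ →
      (∀ y, (cy β).m.p1 D.B (y, 0) (α y) = α y) → (∀ y, (cy β).m.pp D.B (y, 0) (φ y) = φ y) →
      ∀ ε, Ad0 (ND.vz β α φ ε) D.B D.G := fun a s s' p p' ε =>
    ad0_vr a (fun x => SA.smul contMDiffAt_const (sm_fst s x))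
      (fun x => (map_smul _ _ _).trans (congrArg (ε • ·) (p1_t (p x.1))))
      (fun x => SA.smul contMDiffAt_const (sm_fst s' x))
      fun x => (map_smul _ _ _).trans (congrArg (ε • ·) (by exact p' x.1))
  have k : ∀ ε, CR0 D.B D.G D.B D.G univ univ id (PZ D) D.B.l (ND.vz β α φ ε)
      (ND.vz β' (fun y => cjf (g y) (α y)) (fun y => cs β'.m.J ζ (g y (φ y))) ε)
      (fun x => g x.1) ζ := fun ε =>
    cr0_univ (av a sα sφ pα pφ ε) (av a' sα' sφ' pα' pφ' ε) (ceq_vr hD.B a e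
      (fun x => (map_smul _ _ _).trans (congrArg (ε • ·) (p1_t (pα x.1))))
      (fun x => PiLp.ext fun b => (map_smul (cj (g x.1)) ε (α x.1 b)).symm)
      fun x => (map_smul (csL β'.m.J ζ ∘L g x.1) ε (φ x.1)).symm)
  have p := (hD.q1 (r := 0) (n := 0) hN).nat
  obtain ⟨ξ, t, sξ, mξ, h1, h2⟩ := h _ _ sα' sφ' pα' (fun y => by
      show cj (g y) (α y none) = 0
      rw [α0, map_zero]) pφ'
    (fun x => by
      have := (csL β'.m.J ζ ∘L g x.1).hasFDerivAt.comp_hasDerivAt 0 (dD x)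
      rw [map_zero] at this
      exact this.congr_of_eventuallyEq (Eventually.of_forall fun ε =>
        p.eD hD.kc.toLG (k ε) (mem_univ x)))
    (fun x s => by
      have := HasDerivAt.fun_sum (u := Finset.univ) fun b _ => ((cj (g x.1)).hasFDerivAt.comp_hasDerivAt 0
        (dC x b)).const_smul (sq2 (PZ D x) s b)
      simp only [map_zero, smul_zero, Finset.sum_const_zero] at this
      exact this.congr_of_eventuallyEq (Eventually.of_forall fun ε =>
        (congrArg (· s) (p.eC hD.kc.toLG (k ε) (mem_univ x))).trans (ridx_apply _ _ _ _)))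
  have i : ∀ y, Itw I3 D.F.e (fun k => β.W (some k)) (fun k => β'.W (some k)) g y := fun y k => by
    have := (Pj41.par0_iff ((Pj41.IsConn.on A'.adm.conn univ).proj' hD.B)).2 e.W (y, 0) trivial
      (some k)
    exact (congrArg (· + _) (congrFun (D_some_fst D.F.toPre sg k) (y, 0))).symm.trans
      (sub_eq_zero.1 this)
  have sk := fun y k => a.conn.sk (some k) (y, 0)
  have sk' := fun y k => a'.conn.sk (some k) (y, 0)
  have sy := fun y => (me (y, 0)).symm (be _) a.ok a'.ok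
  refine ⟨fun y => cj (trn (g y)) (ξ y), t, fun y => (sa_cj (sa_trn (sg y))).app (sξ y),
    fun y => (sy y).cj_mem ((be _).symm hD.B hD.B) a'.ok a.ok (mξ y), fun k y => ?_, fun y => ?_⟩
  · have := (((i y).trn (sg y) (sk y) (sk' y)).cj (sa_trn (sg y)) (sk' y) (sk y)).nab
      (sa_cj (sa_trn (sg y))).md (SA.md (sξ y)) k
    refine Eq.trans ?_ (congrArg Neg.neg this).symm
    rw [← map_neg]
    exact ((me (y, 0)).trn_cj ((p1_iff.1 (pα y)).1 _)).symm.trans (congrArg _ (h1 k y))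
  · have m := (me (y, 0)).phase a'.ok ζ
    have e1 : ∀ v, trn (csL β'.m.J ζ ∘L g y) (cs β'.m.J ζ (g y v)) = β.m.p y v := fun v =>
      congrArg (· v) m.uu
    have e2 : β.m.p y (φ y) = φ y := by rw [← pφ y]; exact p_pp a.ok (y, 0) _
    have e3 : β'.Φ y = (csL β'.m.J ζ ∘L g y) (β.Φ y) := e.Φ (y, 0) trivial
    have e4 := (sy y).cj_mem ((be _).symm hD.B hD.B) a'.ok a.ok (mξ y)
    have e5 := opL_cj_u m a.ok e4
    have e6 := (cj_phase (me (y, 0)) a.ok a'.ok ζ e4).trans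
      ((congrArg (cj · _) (trn_trn _)).symm.trans ((sy y).trn_cj (mξ y)))
    rw [e6] at e5
    have e7 : cs β'.m.J ζ (g y (φ y)) = (csL β'.m.J ζ ∘L g y)
        (opL (cj (trn (g y)) (ξ y)) (β.Φ y) + t • β.m.J (β.Φ y)) := by
      rw [map_add, map_smul]
      exact (h2 y).trans (congrArg₂ (· + t • ·) ((congrArg _ e3).trans (congrArg (· (β.Φ y)) e5))
        ((congrArg _ e3).trans (m.J_apply _)))
    rw [← e2, ← e1, e7]
    refine (e1 _).trans ((map_add _ _ _).trans (congrArg₂ (· + ·) (congrArg (· (β.Φ y)) (g_p e4))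
      ((map_smul _ _ _).trans (congrArg (t • ·) ?_))))
    exact (congrArg (· (β.Φ y)) (a.ok.Jp (y, 0))).symm.trans (congrArg β.m.J (p_Φ a (y, 0)))

end Crest.Agent.X212.Fx4
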