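import Crest.Agent.X212.Mcg32.LinCl
import Crest.Agent.X212.Pj41.LinLim
import Crest.Agent.X212.Eqv71.Cyl

/-!
# Row 212 (helper4): configurations fixed by the circle pass to limits
-/

set_option autoImplicit false
set_option linter.unusedSectionVars false
noncomputable section
open scoped Manifold ContDiff Topology InnerProductSpace
open Set Function Filter

namespace Crest.Agent.X212.Fx4
open An Nd18 Cmp73 Pj41 Wz78 Cyf70 Tmp64 Bki64
open Loc66 (Bub)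
open Eqv71 (ME Itw cj Ad0 sa_cj me_of_meq)

section gen
variable {E : Type} [NormedAddCommGroup E] [NormedSpace ℝ E] [FiniteDimensional ℝ E]
  [MeasurableSpace E] [BorelSpace E]
  {HM : Type} [TopologicalSpace HM] {I : ModelWithCorners ℝ E HM} [I.Boundaryless]
  {M : Type} [TopologicalSpace M] [ChartedSpace HM M] [IsManifold I ∞ M]
  [MeasurableSpace M] [BorelSpace M] [T2Space M] [SecondCountableTopology M]
  {ι : Type} [Fintype ι] {lam : Type} [Fintype lam] {B : Base M ι lam} {O S : Set M} {x : M}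
  {r : ℕ}

/-- a bounded parallel section which acts on the spinor as the circle, at a point -/
structure FAt (F : Fr I M ι) (m : Md M ι lam) (W : m.Cn) (Φ : M → m.V) (ξ : M → m.A) (x : M) :
    Prop where
  sm : SA I ξ x
  mem : ξ x ∈ m.gS x
  par : ∀ a, nab I F.e (m.adW W) a ξ x = 0
  fix : opL (ξ x) (Φ x) = m.J (Φ x)
  bd : ‖ξ x‖ ≤ 4

theorem fix_of {F : Fr I M ι} {c : Cfg M ι lam r} {ξ} (h : ∀ x ∈ O, FAt F c.m c.W c.Φ ξ x) :
    Fix F c O := ⟨ξ, ⟨fun x hx => (h x hx).sm.contMDiffWithinAt, fun x hx => (h x hx).mem,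
      fun a x hx => (h x hx).par a⟩, fun x hx => (h x hx).fix⟩

theorem of_fix {G : Geo I M ι lam} {c : Cfg M ι lam r} (hB : B.OK I) (A : Ad0 c B G)
    (hO : IsOpen O) (h : Fix G.F c O) : ∃ ξ, ∀ x ∈ O, FAt G.F c.m c.W c.Φ ξ x := by
  classical
  obtain ⟨ξ, p, h⟩ := h
  have := I.toHomeomorph.locallyConnectedSpace
  have := ChartedSpace.locallyConnectedSpace HM M
  have s : ∀ x ∈ O, SA I ξ x := fun x hx => p.sm.contMDiffAt (hO.mem_nhds hx)
  refine ⟨fun x => if ∃ y ∈ connectedComponentIn O x, c.Φ y ≠ 0 then ξ x else 0, fun x hx => ?_⟩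
  have m := mem_connectedComponentIn hx
  have o := hO.connectedComponentIn (x := x)
  have u := connectedComponentIn_subset O x
  by_cases k : ∃ y ∈ connectedComponentIn O x, c.Φ y ≠ 0
  · have e : (fun x => if ∃ y ∈ connectedComponentIn O x, c.Φ y ≠ 0 then ξ x else 0) =ᶠ[𝓝 x] ξ :=
      (o.eventually_mem m).mono fun z hz => if_pos (connectedComponentIn_eq hz ▸ k)
    refine ⟨(s x hx).congr_of_eventuallyEq e, if_pos k ▸ p.mem x hx,
      fun a => (nab_congr a e).trans (p.par a x hx), if_pos k ▸ h x hx, ?_⟩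
    obtain ⟨t, ht⟩ := Abel74.const_of_D (F := G.F) o isPreconnected_connectedComponentIn
      (fun x hx => SA.inner (s x (u hx)) (s x (u hx))) fun a x hx => by
        rw [Pre.D_def, dv_inner (A := c.m.adW c.W) a (adc_skw (A.conn.sk a x)) (s x (u hx))
          (s x (u hx)), p.par a x (u hx)]
        simp
    rw [if_pos k]
    obtain ⟨y, hy, k⟩ := k
    have e1 := congrArg (· (c.Φ y)) (Std94.g_sq hB (Std94.pmx A.ok y) (p.mem y (u hy)))
    have e2 := congrArg (· (c.Φ y)) (p.mem y (u hy)).2.2.1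
    have e3 := congrArg (· (c.Φ y)) A.ok.Jsq
    simp only [mul_apply_eq_comp, smul_apply, h y (u hy), Eqv71.p_Φ A, neg_apply,
      one_apply_eq_self] at e1 e2 e3
    rw [← e2, e3, ← neg_one_smul ℝ] at e1
    have e4 := (ht x m).trans (ht y hy).symm
    simp only [real_inner_self_eq_norm_sq] at e4
    nlinarith [smul_left_injective ℝ k e1, norm_nonneg (ξ x)]
  · have e : (fun x => if ∃ y ∈ connectedComponentIn O x, c.Φ y ≠ 0 then ξ x else 0) =ᶠ[𝓝 x]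
        fun _ => 0 := (o.eventually_mem m).mono fun z hz => if_neg (connectedComponentIn_eq hz ▸ k)
    have z : c.Φ x = 0 := by_contra fun z => k ⟨x, m, z⟩
    exact ⟨contMDiffAt_const.congr_of_eventuallyEq e, if_neg k ▸ zero_mem _,
      fun a => (nab_congr a e).trans (by simp [nab]), by simp [z], by simp [if_neg k]⟩

theorem FAt.push {F : Fr I M ι} {m m' : Md M ι lam} {W : m.Cn} {V : m'.Cn} {u : M → CL m.V m'.V}
    {Φ ξ} (l : FAt F m W Φ ξ x) (h : OKOn I B m O) (h' : OKOn I B m' O) (e : Iso0 I m m' O u)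
    (hx : x ∈ O) (p : Par0 F W V O u) (s : ∀ a, Skw (W a x)) (s' : ∀ a, Skw (V a x)) (ζ : Circle) :
    FAt F m' V (fun y => cs m'.J ζ (u y (Φ y))) (fun y => cj (u y) (ξ y)) x := by
  have me := me_of_meq (e.mEq h h') hx
  have su : SA I u x := e.su x hx
  have i : Itw I F.e W V u x := fun a => sub_eq_zero.1 (p x hx a)
  have k : ∀ v, opL (cj (u x) (ξ x)) (u x v) = u x (opL (ξ x) v) := fun v => by
    have := congrArg (fun η => opL η v) (ME.cj_p l.mem)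
    simp only [Eqv71.opL_cj, ContinuousLinearMap.comp_apply, Eqv71.trn_of_sym (h.psym x hx)] at this
    rw [Eqv71.opL_cj, ← this]
    simp only [ContinuousLinearMap.comp_apply, show ∀ v, trn (u x) (u x v) = m.p x v from
      fun v => congrArg (· v) me.uu]
    exact (DFunLike.congr_fun (e.iso x hx).idem _).symm
  refine ⟨(sa_cj su).app l.sm, cj_mem e h h' hx l.mem, fun a =>
    ((i.cj su s s').nab (sa_cj su).md l.sm.md a).trans
      ((congrArg _ (l.par a)).trans (map_zero _)), ?_, ?_⟩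
  · have h1 : ∀ a, opL (ξ x) (m.J a) = m.J (opL (ξ x) a) := fun a =>
      (congrArg (fun T : En _ => T a) (g_J l.mem)).symm
    rw [me.cs, k, me.J_apply]
    simp only [cs, map_add, map_smul, h1, l.fix]
  · rw [norm_eq_sqrt_real_inner, me.inner_cj _ l.mem, ← norm_eq_sqrt_real_inner]
    exact l.bd

theorem FAt.wp {G : Geo I M ι lam} {r' : ℕ} {c : Cfg M ι lam r} {c' : Cfg M ι lam r'} {u ξ}
    (l : FAt G.F c.m c.W c.Φ ξ x) (hG : G.F.P = B.P) (i : Iso0 I c.m c'.m O u) (hO : IsOpen O)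
    (h : AdmOn c B G O) (h' : AdmOn c' B G O) (hx : x ∈ O) (ζ : Circle) : FAt G.F c'.m
      (Wp G.F c c' u) (fun y => cs c'.m.J ζ (u y (c.Φ y))) (fun y => cj (u y) (ξ y)) x :=
  l.push h.ok h'.ok i hx (par_Wp i hO h) (fun a => h.conn.sk a x hx) (fun a v w => by
    have := ((dA_mem hG i hO h h' hx).1 a).1 v w
    rw [Wz78.opL_hsL] at this
    simp only [Wp, sub_apply, inner_sub_left, inner_sub_right, this, h'.conn.sk a x hx v w]
    ring) ζ

theorem FAt.D {F : Fr I M ι} {r' : ℕ} {c : Cfg M ι lam r} {c' : Cfg M ι lam r'} {u Φ ξ}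
    (l : FAt F c'.m (Wp F c c' u) Φ ξ x) (a : ι) :
    F.D a ξ x = adcL (dA F c c' u a x) (ξ x) - adcL (c'.W a x) (ξ x) :=
  (eq_neg_of_add_eq_zero_left (l.par a)).trans (by
    rw [Md.adW, ← adcL_apply, Wp, map_sub, sub_apply, neg_sub])

variable {α : Type} {𝒰 : Ultrafilter α} {G : α → Geo I M ι lam} {G₀ : Geo I M ι lam}

theorem fat_lim {F : α → Fr I M ι} {F₀ : Fr I M ι} (f : Loc66.FCv 𝒰 O F F₀) (hO : IsOpen O)
    {m : Md M ι lam} {V : α → m.Cn} {V₀ : m.Cn} (hV : ∀ a, Cv I 𝒰 O (fun n => V n a) (V₀ a))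
    {Ψ : α → M → m.V} {Ψ₀} (hΨ : Cv I 𝒰 O Ψ Ψ₀) {p : α → M → m.A}
    (h : ∀ x ∈ O, ∀ᶠ q : α × M in (𝒰 : Filter α) ×ˢ 𝓝 x,
      FAt (F q.1) m (V q.1) (Ψ q.1) (p q.1) q.2) : ∃ ξ, ∀ x ∈ O, FAt F₀ m V₀ Ψ₀ ξ x := by
  have f' : Abel74.FCv 𝒰 O F F₀ := ⟨fun a => (f a).mb, fun a => (f a).pt, f.c hO⟩
  have a1 : ∀ a, Cv I 𝒰 O (fun n => m.adW (V n) a) (m.adW V₀ a) := fun a => (hV a).clm adcL
  obtain ⟨ξ, hξ⟩ := (f'.mb_par (A := fun n => m.adW (V n)) (f := p) (fun a => (a1 a).mb)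
    fun x hx => (h x hx).mono fun q k => ⟨k.sm, k.bd, k.par⟩).exists_cv
  refine ⟨ξ, fun x hx => ?_⟩
  have k : ∀ᶠ n in (𝒰 : Filter α), FAt (F n) m (V n) (Ψ n) (p n) x :=
    (h x hx).curry.mono fun _ k => k.self_of_nhds
  exact ⟨hξ.smoothAt hO hx, hξ.mem_closed hx (m.gS x).closed_of_finiteDimensional
    (k.mono fun _ k => k.mem), fun a => ((f.D hO hξ a).add ((a1 a).app hξ)).eq_of (Cv.const 0) hx
      (k.mono fun _ k => k.par a), ((hξ.clm opL).app hΨ).eq_of (hΨ.clm m.J) hx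
      (k.mono fun _ k => k.fix), le_of_tendsto (hξ.pt x hx).norm (k.mono fun _ k => k.bd)⟩

variable {c : α → Cfg M ι lam r} {c₀ : Cfg M ι lam r} {u : ∀ n, M → CL (c n).m.V c₀.m.V}

/-- **fixed configurations pass to limits** -/
theorem fix_lim (h : Bub 𝒰 B O S G G₀ (fun n => (c n).m) (fun n => (c n).W) c₀.m c₀.W u)
    {ζ : α → Circle} (hΦ : Cv I 𝒰 (O \ S) (fun n x => cs c₀.m.J (ζ n) (u n x ((c n).Φ x))) c₀.Φ)
    (hl : ∀ᶠ n in (𝒰 : Filter α), Ad0 (c n) B (G n) ∧ Fix (G n).F (c n) (O \ S)) :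
    Fix G₀.F c₀ (O \ S) := by
  have : ∀ n, ∃ ξ, Ad0 (c n) B (G n) ∧ Fix (G n).F (c n) (O \ S) →
      ∀ x ∈ O \ S, FAt (G n).F (c n).m (c n).W (c n).Φ ξ x := fun n =>
    (em _).elim (fun k => (of_fix h.hB k.1 h.op k.2).imp fun _ k _ => k) fun k => ⟨0, fun k' => absurd k' k⟩
  choose ξ hξ using this
  refine (fat_lim (h.F.mono le_rfl sdiff_subset) h.op h.cv_vv hΦ
    (p := fun n y => cj (u n y) (ξ n y)) fun x hx => ?_).elim fun _ k => fix_of k
  obtain ⟨A, a1, a2, a3, a4⟩ := h.iso_cpt isCompact_singleton (singleton_subset_iff.2 hx)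
  have a5 : A ⊆ O := fun _ h => (a3 h).1
  filter_upwards [((a4.and (h.ev_vv a1 a5 a4)).and hl).prod_mk
    (a1.mem_nhds (a2 rfl))] with q ⟨⟨⟨k1, k2, k3⟩, k4⟩, k7⟩
  exact (hξ _ k4 _ (a3 k7)).push (OK.on k4.1.ok _) (OK.on h.hm _) k1 k7 k3
    (fun a => k4.1.conn.sk a _) (fun a => k2.sk a _ k7) _

end gen

/-! ### limits along ends -/

variable {E3 : Type} [NormedAddCommGroup E3] [NormedSpace ℝ E3] [FiniteDimensional ℝ E3]
  [MeasurableSpace E3] [BorelSpace E3]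
  {H3 : Type} [TopologicalSpace H3] {I3 : ModelWithCorners ℝ E3 H3} [I3.Boundaryless]
  {Y : Type} [TopologicalSpace Y] [ChartedSpace H3 Y] [IsManifold I3 ∞ Y] [T2Space Y]
  [MeasurableSpace Y] [BorelSpace Y] [SecondCountableTopology Y] [CompactSpace Y]
  {κ : Type} [Fintype κ] {lam : Type} [Fintype lam] {D : YD I3 Y κ lam} {β : YC Y κ lam}
  {E : Type} [NormedAddCommGroup E] [NormedSpace ℝ E] [FiniteDimensional ℝ E]
  [MeasurableSpace E] [BorelSpace E]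
  {HM : Type} [TopologicalSpace HM] {I : ModelWithCorners ℝ E HM} [I.Boundaryless]
  {M : Type} [TopologicalSpace M] [ChartedSpace HM M] [IsManifold I ∞ M]
  [MeasurableSpace M] [BorelSpace M] [T2Space M] [SecondCountableTopology M]
  {B : Base M (Option κ) lam} {G : Geo I M (Option κ) lam} {K : Nk D B G} {r : ℕ}
  {c : Cfg M (Option κ) lam r} {O : Set M} {ζ : Circle} {l : Filter ℝ}

variable (D β ζ) in
/-- windows along an end -/
structure Wn (T : Set (Y × ℝ)) (c : Cfg (Y × ℝ) (Option κ) lam 0) (𝒰 : Ultrafilter ℝ)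
    (u : Y × ℝ → CL c.m.V (cy β).m.V) : Prop where
  sub : ∀ᶠ s in (𝒰 : Filter ℝ), win Y s 2 ⊆ T ∧ AdmOn c D.B D.G (win Y s 2)
  cz : ∀ k, CZ D.Z 𝒰 (fun s => win Y s 2) k (fun _ => c) (cy β) (fun _ => u) fun _ _ => ζ

theorem mem_win (y : Y) (s : ℝ) : (y, s) ∈ win Y s 2 := ⟨trivial, by linarith, by linarith⟩

theorem fix_cl {α κ : Type} [Fintype κ] [DecidableEq κ] {J : En κ} {ξ : α → HS κ} {v : α → Eu κ}
    {ξ₀ v₀} {l : Filter α} [l.NeBot] (h1 : Tendsto ξ l (𝓝 ξ₀)) (h2 : Tendsto v l (𝓝 v₀))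
    (h : ∀ᶠ n in l, opL (ξ n) (v n) = J (v n)) : opL ξ₀ v₀ = J v₀ :=
  tendsto_nhds_unique (((opL (κ := κ)).continuous₂.tendsto (ξ₀, v₀)).comp (h1.prodMk_nhds h2))
    (((J.continuous.tendsto _).comp h2).congr' (h.mono fun _ k => k.symm))

namespace Wn
variable {T : Set (Y × ℝ)} {c : Cfg (Y × ℝ) (Option κ) lam 0} {𝒰 : Ultrafilter ℝ}
  {u : Y × ℝ → CL c.m.V (cy β).m.V} (H : Wn D β ζ T c 𝒰 u)
include H

theorem phi (y : Y) : Tendsto (fun s => cs β.m.J ζ (u (y, s) (c.Φ (y, s)))) 𝒰 (𝓝 (β.Φ y)) :=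
  tendsto_iff_norm_sub_tendsto_zero.2 (NormedAddGroup.tendsto_nhds_zero.2 fun η hη =>
    ((H.cz 0).P.le (half_pos hη)).mono fun s hs => by
      rw [norm_norm]; exact (hs _ (mem_win y s)).trans_lt (half_lt_self hη))

theorem zr (h : ∀ x ∈ T, c.Φ x = 0) : D.Zr β := fun y =>
  tendsto_nhds_unique (H.phi y) (tendsto_const_nhds.congr' (H.sub.mono fun s hs => by
    beta_reduce
    rw [h _ (hs.1 (mem_win y s)), map_zero]
    exact (Eqv71.csL β.m.J ζ).map_zero.symm))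

theorem fix (hβ : D.Adm β) {ξ} (p : ∀ x ∈ T, FAt D.G.F c.m c.W c.Φ ξ x) : D.Fx β := by
  have B' := fun s => (admOn_univ.2 hβ.adm).mono (subset_univ (win Y s 2))
  have la := ((H.cz 0).iso.and H.sub).mono fun s k x (hx : x ∈ win Y s 2) =>
    (p _ (k.2.1 hx)).wp rfl k.1 (win_op _ _) k.2.2 (B' s) hx ζ
  obtain ⟨g, sg, pg, tg⟩ := par_lim (F := D.F.toPre) (𝒰 := 𝒰) (s := id) (C := 4) two_pos
    (N := (cy β).m.A) (T := fun _ x => cj (u x) (ξ x)) (A := fun a y => adcL ((cy β).W a (y, 0)))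
    (Z := fun a _ x => adcL (dA D.G.F c (cy β) u a x))
    (fun a y => SA.clm _ (sm_slice (t := 0) (hβ.adm.conn.cc.sm a _)))
    (fun y => by rw [show (cy β).W none (y, 0) = 0 from hβ.tmp y, map_zero])
    (fun k a => ((H.cz k).A a).clm _) (la.mono fun s h x hx => ⟨⟨(h x hx).sm, (h x hx).bd⟩, (h x hx).D⟩)
  have k := fun y => la.mono fun s h => h _ (mem_win y s)
  exact ⟨fun x => g x.1, ⟨(sm_fst sg).contMDiffOn, fun x _ =>
    (β.m.gS x.1).closed_of_finiteDimensional.mem_of_tendsto (tg x.1) ((k x.1).mono fun _ k => k.mem),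
    fun a x _ => pg a x⟩, fun x _ => fix_cl (tg x.1) (H.phi x.1) ((k x.1).mono fun _ k => k.fix)⟩

theorem lin (hβ : D.Adm β) {π} (p : ∀ x ∈ T, Mcg32.LAt D.G.F c.m c.W π x) : D.Ln β := by
  have B' := fun s => (admOn_univ.2 hβ.adm).mono (subset_univ (win Y s 2))
  have la : ∀ᶠ s in (𝒰 : Filter ℝ), ∀ x ∈ win Y s 2,
      LinAt (cy β).m x (cj (u x) ∘L π x ∘L cj (trn (u x))) :=
    ((H.cz 0).iso.and H.sub).mono fun s ⟨i, h1, h2⟩ x hx => have q := p _ (h1 hx)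
      LinAt.push i h2.ok (B' s).ok hx ⟨q.sym, q.idem, q.pg, q.tr⟩
  obtain ⟨g, sg, pg, tg⟩ := par_lim (F := D.F.toPre) (𝒰 := 𝒰) (s := id) (C := 1) two_pos
    (N := CL (cy β).m.A (cy β).m.A) (T := fun _ x => cj (u x) ∘L π x ∘L cj (trn (u x)))
    (A := fun a y => Wz78.ad _ (adcL ((cy β).W a (y, 0))))
    (Z := fun a _ x => Wz78.ad _ (adcL (dA D.G.F c (cy β) u a x)))
    (fun a y => SA.clm _ (SA.clm _ (sm_slice (t := 0) (hβ.adm.conn.cc.sm a _))))
    (fun y => by rw [show (cy β).W none (y, 0) = 0 from hβ.tmp y, adcL.map_zero,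
      ContinuousLinearMap.map_zero])
    (fun k a => (((H.cz k).A a).clm _).clm _)
    ((((H.cz 0).iso.and la).and H.sub).mono fun s ⟨⟨i, h⟩, h1, h2⟩ x hx =>
      have q := p _ (h1 hx)
      ⟨⟨Eqv71.sa_comp (sa_cj (i.su x hx)) (Eqv71.sa_comp q.sm (sa_cj (Eqv71.sa_trn (i.su x hx)))),
        (h x hx).norm_le⟩, fun a => by
          have := D_push (G := D.G) (c' := cy β) rfl i (win_op _ _) h2 (B' s) hx q.sm q.par a
          rw [show (cy β).W a x = (cy β).W a (x.1, 0) from rfl] at this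
          exact this⟩)
  refine ⟨fun x => g x.1, (sm_fst sg).contMDiffOn, fun x _ => ?_⟩
  have := (closed_linAt (cy β).m x).mem_of_tendsto (tg x.1) (la.mono fun s h => h _ (mem_win x.1 s))
  exact ⟨this.1, this.2.1, this.2.2.1, this.2.2.2, fun a => pg a x⟩

end Wn

theorem exists_wn (A : Ad0 c B G) (hβ : D.Adm β) [l.NeBot]
    (hl : ∀ S ∈ l, ∀ᶠ s in l, Ioo (s - 2) (s + 2) ⊆ S) (h : K.Lim c β ζ l) :
    ∃ 𝒰 u, Wn D β ζ K.ψ.source (K.pb (noz c)) 𝒰 u := by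
  obtain ⟨u, hu⟩ := h
  obtain ⟨S, h1, h2, -⟩ := hu 0 1 one_pos
  refine ⟨.of l, u, ((hl S h1).filter_mono (Ultrafilter.of_le l)).mono fun s hs =>
    ⟨fun z hz => K.mem_src.2 (h2 (hs hz.2)), Eqv71.admOn_pb K A (hs.trans h2)⟩, fun k ε hε => ?_⟩
  obtain ⟨S, h1, h2, h3⟩ := hu k ε hε
  exact ((hl S h1).filter_mono (Ultrafilter.of_le l)).mono fun s hs =>
    (cl_of_cls (c := K.pb (noz c)) hβ (Eqv71.admOn_pb K A h2) ⟨h3.op, h3.m, h3.A, h3.P⟩).mono
      (win_op _ _) (prod_mono_right hs) le_rfl le_rfl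

/-- **the type of the limit along an end** -/
theorem end_typ (hB : B.OK I) (A : Ad0 c B G) (hβ : D.Adm β) [l.NeBot]
    (hl : ∀ S ∈ l, ∀ᶠ s in l, Ioo (s - 2) (s + 2) ⊆ S) (h : K.Lim c β ζ l) (hO : IsOpen O)
    (hK : MapsTo K.ψ K.ψ.source O) : ((∀ x ∈ O, c.Φ x = 0) → D.Zr β) ∧ (Fix G.F c O → D.Fx β) ∧
      (Nd18.Lin G.F c O → D.Ln β) := by
  obtain ⟨𝒰, u, H⟩ := exists_wn A hβ hl h
  refine ⟨fun h => H.zr fun x hx => h _ (hK hx), fun h => ?_, fun h => ?_⟩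
  · obtain ⟨ξ, p⟩ := of_fix hB A hO h
    exact H.fix hβ (ξ := fun x => ξ (K.ψ x)) fun x hx => have q := p _ (hK hx)
      ⟨K.rel.sm hx q.sm, q.mem, fun a => (K.rel.nab hx a (A' := c.m.adW c.W) rfl
        (.of_forall fun _ => rfl)).trans (q.par a), q.fix, q.bd⟩
  · obtain ⟨π, p⟩ := (Mcg32.lin_iff hO).1 h
    refine H.lin hβ (π := fun x => π (K.ψ x)) fun x hx => have q := p _ (hK hx)
      ⟨K.rel.sm hx q.sm, q.sym, q.idem, q.pg, q.tr, fun a => ?_⟩
    have := q.par a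
    rw [← K.rel.D hx a (u := fun x => π (K.ψ x)) (.of_forall fun _ => rfl)] at this
    exact this

end Crest.Agent.X212.Fx4
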